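import Vale.Agent.P330.W.H709.LTC

/-!
# Local testability of four-partite complexes with a local system

`pa : A → Perm G`, `pb : B → Perm G` commuting families of permutations (left and right
multiplications of a group `G`).  Words `c : G → A → B → X → F`: the value on the face `(g, a, b)`
is a family of registers `X → F`, in the frame of the vertex `(g; 0, 0)`; along an `A`-edge the
registers are relabelled by `σ a`.  The view at the vertex `(g; i, j)` is the array of the values
on the faces through it, in the frame of that vertex.  Main result `ltc_word`: if the views of `c`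
at all but few vertices are in the local tensor codes `CA i ⊗ CB j` (every register), then `c` is
equal, outside few sites, to a word all of whose views are in the local tensor codes.
-/

namespace Vale.Agent.P330.W.H709

open Finset

variable {G A B X F : Type*}

/-- The square complex on `G × Bool × Bool`. -/
def sqC (pa : A → Equiv.Perm G) (pb : B → Equiv.Perm G)
    (hc : ∀ a b g, pa a (pb b g) = pb b (pa a g)) : SqC (G × Bool × Bool) A B where
  na a v := (if v.2.1 then (pa a).symm v.1 else pa a v.1, !v.2.1, v.2.2)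
  nb b v := (if v.2.2 then (pb b).symm v.1 else pb b v.1, v.2.1, !v.2.2)
  na_na a v := by
    obtain ⟨g, i, j⟩ := v
    cases i <;> simp
  nb_nb b v := by
    obtain ⟨g, i, j⟩ := v
    cases j <;> simp
  na_ne a v := by
    obtain ⟨g, i, j⟩ := v
    cases i <;> simp
  nb_ne b v := by
    obtain ⟨g, i, j⟩ := v
    cases j <;> simp
  comm a b v := by
    have h1 : ∀ g, (pa a).symm (pb b g) = pb b ((pa a).symm g) := fun g => by
      rw [Equiv.symm_apply_eq, hc, Equiv.apply_symm_apply]
    have h2 : ∀ g, pa a ((pb b).symm g) = (pb b).symm (pa a g) := fun g => by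
      rw [Equiv.eq_symm_apply, ← hc, Equiv.apply_symm_apply]
    have h3 : ∀ g, (pa a).symm ((pb b).symm g) = (pb b).symm ((pa a).symm g) := fun g => by
      rw [Equiv.eq_symm_apply, ← h1, Equiv.apply_symm_apply]
    obtain ⟨g, i, j⟩ := v
    cases i <;> cases j <;> simp [hc, h1, h2, h3]

/-! ### Spectral hypothesis -/

section Spectral

variable [Fintype G] [Fintype A] [Fintype B]

/-- expansion of a family of permutations -/
def ExpP (p : A → Equiv.Perm G) (L : ℝ) : Prop :=
  ∀ f : G → ℝ, ∑ g, f g = 0 → ∑ g, (∑ a, f (p a g)) ^ 2 ≤ L * ∑ g, f g ^ 2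

theorem ExpP.all {p : A → Equiv.Perm G} {L : ℝ} (h : ExpP p L) (hL : 0 ≤ L) [Nonempty G]
    (f : G → ℝ) :
    ∑ g, (∑ a, f (p a g)) ^ 2 ≤
      L * ∑ g, f g ^ 2 + (Fintype.card A : ℝ) ^ 2 * (∑ g, f g) ^ 2 / Fintype.card G := by
  have hG : (0 : ℝ) < Fintype.card G := by exact_mod_cast Fintype.card_pos
  set m : ℝ := (∑ g, f g) / Fintype.card G with hm
  set f0 : G → ℝ := fun g => f g - m with hf0
  have hs : ∑ g, f0 g = 0 := by
    simp only [hf0, Finset.sum_sub_distrib, Finset.sum_const, Finset.card_univ, nsmul_eq_mul, hm]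
    field_simp
    ring
  have h1 := h f0 hs
  have hperm : ∀ a, ∑ g, f0 (p a g) = 0 := fun a => by
    rw [Equiv.sum_comp (p a) f0, hs]
  have hsum : ∑ g, ∑ a, f0 (p a g) = 0 := by
    rw [Finset.sum_comm]
    exact Finset.sum_eq_zero fun a _ => hperm a
  have e1 : ∀ g, ∑ a, f (p a g) = ∑ a, f0 (p a g) + Fintype.card A * m := by
    intro g
    simp [hf0, Finset.sum_sub_distrib]
  have e2 : ∑ g, (∑ a, f (p a g)) ^ 2 =
      ∑ g, (∑ a, f0 (p a g)) ^ 2 + Fintype.card G * (Fintype.card A * m) ^ 2 := by
    have : ∀ g, (∑ a, f (p a g)) ^ 2 = (∑ a, f0 (p a g)) ^ 2 +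
        2 * (Fintype.card A * m) * (∑ a, f0 (p a g)) + (Fintype.card A * m) ^ 2 := by
      intro g; rw [e1 g]; ring
    rw [Finset.sum_congr rfl fun g _ => this g, Finset.sum_add_distrib, Finset.sum_add_distrib,
      ← Finset.mul_sum, hsum]
    simp
  have e3 : ∑ g, f g ^ 2 = ∑ g, f0 g ^ 2 + Fintype.card G * m ^ 2 := by
    have : ∀ g, f g ^ 2 = f0 g ^ 2 + 2 * m * f0 g + m ^ 2 := by
      intro g; simp only [hf0]; ring
    rw [Finset.sum_congr rfl fun g _ => this g, Finset.sum_add_distrib, Finset.sum_add_distrib,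
      ← Finset.mul_sum, hs]
    simp
  have e4 : (Fintype.card A : ℝ) ^ 2 * (∑ g, f g) ^ 2 / Fintype.card G =
      Fintype.card G * (Fintype.card A * m) ^ 2 := by
    rw [hm]; field_simp
  rw [e2, e4, e3]
  nlinarith [mul_nonneg hL (mul_nonneg hG.le (sq_nonneg m))]

omit [Fintype B] in
/-- The inverse permutations expand as well. -/
theorem ExpP.symm {p : A → Equiv.Perm G} {L : ℝ} (h : ExpP p L) (hL : 0 ≤ L) :
    ExpP (fun a => (p a).symm) L := by
  intro f hf
  set g : G → ℝ := fun v => ∑ b, f ((p b).symm v) with hg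
  have hg0 : ∑ v, g v = 0 := by
    simp only [hg]
    rw [Finset.sum_comm]
    have : ∀ b, ∑ v, f ((p b).symm v) = 0 := fun b => by
      rw [Equiv.sum_comp (p b).symm f, hf]
    simp [this]
  have h1 := h g hg0
  have h2 : ∑ v, g v ^ 2 = ∑ v, f v * ∑ b, g (p b v) := by
    calc ∑ v, g v ^ 2 = ∑ v, ∑ b, f ((p b).symm v) * g v := by
          refine Finset.sum_congr rfl fun v _ => ?_
          rw [sq, ← Finset.sum_mul]
      _ = ∑ b, ∑ v, f ((p b).symm v) * g v := Finset.sum_comm
      _ = ∑ b, ∑ v, f v * g (p b v) := by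
          refine Finset.sum_congr rfl fun b _ => ?_
          rw [← Equiv.sum_comp (p b) fun v => f ((p b).symm v) * g v]
          simp
      _ = ∑ v, ∑ b, f v * g (p b v) := Finset.sum_comm
      _ = _ := by
          refine Finset.sum_congr rfl fun v _ => ?_
          rw [Finset.mul_sum]
  have h3 : (∑ v, g v ^ 2) ^ 2 ≤ (∑ v, f v ^ 2) * ∑ v, (∑ b, g (p b v)) ^ 2 := by
    rw [h2]
    exact Finset.sum_mul_sq_le_sq_mul_sq _ _ _
  have hG : 0 ≤ ∑ v, g v ^ 2 := Finset.sum_nonneg fun v _ => sq_nonneg _
  have hF : 0 ≤ ∑ v, f v ^ 2 := Finset.sum_nonneg fun v _ => sq_nonneg _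
  change ∑ v, g v ^ 2 ≤ _
  rcases hG.eq_or_lt with h0 | h0
  · rw [← h0]
    positivity
  · have h4 : (∑ v, g v ^ 2) * (∑ v, g v ^ 2) ≤ (L * ∑ v, f v ^ 2) * ∑ v, g v ^ 2 := by
      calc (∑ v, g v ^ 2) * (∑ v, g v ^ 2) = (∑ v, g v ^ 2) ^ 2 := by ring
        _ ≤ (∑ v, f v ^ 2) * ∑ v, (∑ b, g (p b v)) ^ 2 := h3
        _ ≤ (∑ v, f v ^ 2) * (L * ∑ v, g v ^ 2) := by gcongr
        _ = _ := by ring
    exact le_of_mul_le_mul_right h4 h0

theorem sum_prod_bool (f : G × Bool × Bool → ℝ) :
    ∑ v, f v = ∑ i : Bool, ∑ j : Bool, ∑ g, f (g, i, j) := by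
  rw [Fintype.sum_prod_type, Finset.sum_comm, Fintype.sum_prod_type]

theorem specA {pa : A → Equiv.Perm G} {pb : B → Equiv.Perm G}
    {hc : ∀ a b g, pa a (pb b g) = pb b (pa a g)} [Nonempty G] {L : ℝ} (hL : 0 ≤ L)
    (h1 : ExpP pa L) (h2 : ExpP (fun a => (pa a).symm) L) :
    SqC.Spec (sqC pa pb hc).na L (4 * (Fintype.card A : ℝ) ^ 2) := by
  intro f hf
  have hG : (0 : ℝ) < Fintype.card G := by exact_mod_cast Fintype.card_pos
  have key : ∀ i j, ∑ g, (∑ a, f ((sqC pa pb hc).na a (g, i, j))) ^ 2 ≤
      L * ∑ g, f (g, !i, j) ^ 2 +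
        (Fintype.card A : ℝ) ^ 2 * (∑ g, f (g, !i, j)) ^ 2 / Fintype.card G := by
    intro i j
    cases i
    · simpa [sqC] using h1.all hL (fun g => f (g, true, j))
    · simpa [sqC] using h2.all hL (fun g => f (g, false, j))
  rw [sum_prod_bool, sum_prod_bool (fun v => f v ^ 2), sum_prod_bool]
  simp only [Fintype.sum_bool]
  have k1 := key true true
  have k2 := key true false
  have k3 := key false true
  have k4 := key false false
  simp only [Bool.not_true, Bool.not_false] at k1 k2 k3 k4
  have n1 : 0 ≤ ∑ g, f (g, false, true) := Finset.sum_nonneg fun g _ => hf _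
  have n2 : 0 ≤ ∑ g, f (g, false, false) := Finset.sum_nonneg fun g _ => hf _
  have n3 : 0 ≤ ∑ g, f (g, true, true) := Finset.sum_nonneg fun g _ => hf _
  have n4 : 0 ≤ ∑ g, f (g, true, false) := Finset.sum_nonneg fun g _ => hf _
  have hcard : (Fintype.card (G × Bool × Bool) : ℝ) = 4 * Fintype.card G := by
    simp [Fintype.card_prod]
    ring
  rw [hcard]
  set s1 := ∑ g, f (g, false, true)
  set s2 := ∑ g, f (g, false, false)
  set s3 := ∑ g, f (g, true, true)
  set s4 := ∑ g, f (g, true, false)
  have hq : (Fintype.card A : ℝ) ^ 2 * s1 ^ 2 / Fintype.card G +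
      (Fintype.card A : ℝ) ^ 2 * s2 ^ 2 / Fintype.card G +
      (Fintype.card A : ℝ) ^ 2 * s3 ^ 2 / Fintype.card G +
      (Fintype.card A : ℝ) ^ 2 * s4 ^ 2 / Fintype.card G ≤
      4 * (Fintype.card A : ℝ) ^ 2 * (s3 + s4 + (s1 + s2)) ^ 2 / (4 * Fintype.card G) := by
    have : 4 * (Fintype.card A : ℝ) ^ 2 * (s3 + s4 + (s1 + s2)) ^ 2 / (4 * Fintype.card G) =
        (Fintype.card A : ℝ) ^ 2 * (s3 + s4 + (s1 + s2)) ^ 2 / Fintype.card G := by
      field_simp
    rw [this, ← add_div, ← add_div, ← add_div, div_le_div_iff_of_pos_right hG, ← mul_add,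
      ← mul_add, ← mul_add]
    refine mul_le_mul_of_nonneg_left ?_ (by positivity)
    nlinarith [mul_nonneg n1 n2, mul_nonneg n1 n3, mul_nonneg n1 n4, mul_nonneg n2 n3,
      mul_nonneg n2 n4, mul_nonneg n3 n4]
  linarith

theorem specB {pa : A → Equiv.Perm G} {pb : B → Equiv.Perm G}
    {hc : ∀ a b g, pa a (pb b g) = pb b (pa a g)} [Nonempty G] {L : ℝ} (hL : 0 ≤ L)
    (h1 : ExpP pb L) (h2 : ExpP (fun b => (pb b).symm) L) :
    SqC.Spec (sqC pa pb hc).nb L (4 * (Fintype.card B : ℝ) ^ 2) := by
  intro f hf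
  have hG : (0 : ℝ) < Fintype.card G := by exact_mod_cast Fintype.card_pos
  have key : ∀ i j, ∑ g, (∑ b, f ((sqC pa pb hc).nb b (g, i, j))) ^ 2 ≤
      L * ∑ g, f (g, i, !j) ^ 2 +
        (Fintype.card B : ℝ) ^ 2 * (∑ g, f (g, i, !j)) ^ 2 / Fintype.card G := by
    intro i j
    cases j
    · simpa [sqC] using h1.all hL (fun g => f (g, i, true))
    · simpa [sqC] using h2.all hL (fun g => f (g, i, false))
  rw [sum_prod_bool, sum_prod_bool (fun v => f v ^ 2), sum_prod_bool]
  simp only [Fintype.sum_bool]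
  have k1 := key true true
  have k2 := key true false
  have k3 := key false true
  have k4 := key false false
  simp only [Bool.not_true, Bool.not_false] at k1 k2 k3 k4
  have n1 : 0 ≤ ∑ g, f (g, false, true) := Finset.sum_nonneg fun g _ => hf _
  have n2 : 0 ≤ ∑ g, f (g, false, false) := Finset.sum_nonneg fun g _ => hf _
  have n3 : 0 ≤ ∑ g, f (g, true, true) := Finset.sum_nonneg fun g _ => hf _
  have n4 : 0 ≤ ∑ g, f (g, true, false) := Finset.sum_nonneg fun g _ => hf _
  have hcard : (Fintype.card (G × Bool × Bool) : ℝ) = 4 * Fintype.card G := by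
    simp [Fintype.card_prod]
    ring
  rw [hcard]
  set s1 := ∑ g, f (g, false, true)
  set s2 := ∑ g, f (g, false, false)
  set s3 := ∑ g, f (g, true, true)
  set s4 := ∑ g, f (g, true, false)
  have hq : (Fintype.card B : ℝ) ^ 2 * s1 ^ 2 / Fintype.card G +
      (Fintype.card B : ℝ) ^ 2 * s2 ^ 2 / Fintype.card G +
      (Fintype.card B : ℝ) ^ 2 * s3 ^ 2 / Fintype.card G +
      (Fintype.card B : ℝ) ^ 2 * s4 ^ 2 / Fintype.card G ≤
      4 * (Fintype.card B : ℝ) ^ 2 * (s3 + s4 + (s1 + s2)) ^ 2 / (4 * Fintype.card G) := by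
    have : 4 * (Fintype.card B : ℝ) ^ 2 * (s3 + s4 + (s1 + s2)) ^ 2 / (4 * Fintype.card G) =
        (Fintype.card B : ℝ) ^ 2 * (s3 + s4 + (s1 + s2)) ^ 2 / Fintype.card G := by
      field_simp
    rw [this, ← add_div, ← add_div, ← add_div, div_le_div_iff_of_pos_right hG, ← mul_add,
      ← mul_add, ← mul_add]
    refine mul_le_mul_of_nonneg_left ?_ (by positivity)
    nlinarith [mul_nonneg n1 n2, mul_nonneg n1 n3, mul_nonneg n1 n4, mul_nonneg n2 n3,
      mul_nonneg n2 n4, mul_nonneg n3 n4]
  linarith

end Spectral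

/-! ### Tensor codes, agreement testability -/

section Codes

variable [Field F]

/-- All registers of the view are in the tensor code `CA ⊗ CB`. -/
def InT (CA : Submodule F (A → F)) (CB : Submodule F (B → F)) (y : A → B → X → F) : Prop :=
  (∀ a x, (fun b => y a b x) ∈ CB) ∧ ∀ b x, (fun a => y a b x) ∈ CA

variable [Fintype A] [Fintype B]

open Classical in
/-- Agreement testability of the tensor code `CA ⊗ CB` over the alphabet `X → F`. -/
def CodeAT (X : Type*) (CA : Submodule F (A → F)) (CB : Submodule F (B → F)) (κ : ℝ) : Prop :=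
  ∀ R K : A → B → X → F, (∀ a x, (fun b => R a b x) ∈ CB) → (∀ b x, (fun a => K a b x) ∈ CA) →
    ∃ w : A → B → X → F, InT CA CB w ∧ κ * ((∑ a, if w a = R a then 0 else 1 : ℕ) +
      (∑ b, if ∀ a, w a b = K a b then 0 else 1 : ℕ) : ℕ) ≤
        (∑ a, ∑ b, if R a b = K a b then 0 else 1 : ℕ)

end Codes

/-! ### Words -/

/-- relabelling of the registers -/
def rel (σ : Equiv.Perm X) (s : X → F) : X → F := fun x => s (σ x)

theorem rel_inj (σ : Equiv.Perm X) {s s' : X → F} (h : rel σ s = rel σ s') : s = s' := by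
  funext x
  have := congrFun h (σ.symm x)
  simpa [rel] using this

/-- The view of the word `c` at the vertex `(g; i, j)`. -/
def view (pa : A → Equiv.Perm G) (pb : B → Equiv.Perm G) (σ : A → Equiv.Perm X)
    (c : G → A → B → X → F) (v : G × Bool × Bool) (a : A) (b : B) : X → F :=
  match v.2.1, v.2.2 with
  | false, false => c v.1 a b
  | true, false => rel (σ a) (c ((pa a).symm v.1) a b)
  | false, true => c ((pb b).symm v.1) a b
  | true, true => rel (σ a) (c ((pa a).symm ((pb b).symm v.1)) a b)

/-- gauge: the view in the frame of the other end of the `A`-edge -/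
def gauge (σ : A → Equiv.Perm X) (i : Bool) (y : A → B → X → F) : A → B → X → F :=
  fun a b => if i then rel (σ a).symm (y a b) else y a b

/-- inverse gauge -/
def ungauge (σ : A → Equiv.Perm X) (i : Bool) (y : A → B → X → F) : A → B → X → F :=
  fun a b => if i then rel (σ a) (y a b) else y a b

theorem ungauge_gauge (σ : A → Equiv.Perm X) (i : Bool) (y : A → B → X → F) :
    ungauge σ i (gauge σ i y) = y := by
  funext a b x
  cases i <;> simp [ungauge, gauge, rel]

theorem gauge_ungauge (σ : A → Equiv.Perm X) (i : Bool) (y : A → B → X → F) :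
    gauge σ i (ungauge σ i y) = y := by
  funext a b x
  cases i <;> simp [ungauge, gauge, rel]

section Main

variable [Field F] [Fintype A] [Fintype B]
variable (pa : A → Equiv.Perm G) (pb : B → Equiv.Perm G)
  (hc : ∀ a b g, pa a (pb b g) = pb b (pa a g)) (σ : A → Equiv.Perm X)
  (CA : Bool → Submodule F (A → F)) (CB : Bool → Submodule F (B → F))

/-- local view sets in the gauge -/
def ZZ (v : G × Bool × Bool) : Set (A → B → X → F) :=
  {y | InT (CA v.2.1) (CB v.2.2) (ungauge σ v.2.1 y)}

theorem row_ungauge (i : Bool) (C : Submodule F (B → F)) (y : A → B → X → F) (a : A) :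
    (∀ x, (fun b => ungauge σ i y a b x) ∈ C) ↔ ∀ x, (fun b => y a b x) ∈ C := by
  cases i
  · simp [ungauge]
  · constructor
    · intro h x
      have := h ((σ a).symm x)
      simpa [ungauge, rel] using this
    · intro h x
      have := h (σ a x)
      simpa [ungauge, rel] using this

theorem agreeTest {κ : ℝ} (hAT : ∀ i j, CodeAT X (CA i) (CB j) κ) :
    (sqC pa pb hc).AgreeTest (ZZ σ CA CB) κ := by
  classical
  rintro ⟨g, i, j⟩ R K hR hK
  -- the arrays in the frame of the vertex
  obtain ⟨w, hw, hle⟩ := hAT i j (ungauge σ i R) (ungauge σ i K) (by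
    intro a
    rw [row_ungauge]
    obtain ⟨y, hy, hya⟩ := hR a
    intro x
    have h1 := (row_ungauge σ _ _ y a).1 (hy.1 a) x
    rw [hya] at h1
    simpa [sqC] using h1) (by
    intro b x
    obtain ⟨y, hy, hyb⟩ := hK b
    have h1 := hy.2 b x
    have h2 : (fun a => ungauge σ i K a b x) =
        fun a => ungauge σ ((sqC pa pb hc).nb b (g, i, j)).2.1 y a b x := by
      funext a
      have : ((sqC pa pb hc).nb b (g, i, j)).2.1 = i := rfl
      rw [this]
      cases i <;> simp [ungauge, rel, hyb a]
    rw [h2]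
    simpa [sqC] using h1)
  refine ⟨gauge σ i w, ?_, ?_⟩
  · change InT (CA i) (CB j) (ungauge σ i (gauge σ i w))
    rw [ungauge_gauge]
    exact hw
  · have ent : ∀ (y y' : A → B → X → F) (a : A) (b : B),
        gauge σ i y a b = y' a b ↔ y a b = ungauge σ i y' a b := by
      intro y y' a b
      cases i
      · simp [gauge, ungauge]
      · constructor
        · intro h
          funext x
          have := congrFun h (σ a x)
          simpa [gauge, ungauge, rel] using this
        · intro h
          funext x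
          have := congrFun h ((σ a).symm x)
          simpa [gauge, ungauge, rel] using this
    have ent2 : ∀ (y y' : A → B → X → F) (a : A) (b : B),
        ungauge σ i y a b = ungauge σ i y' a b ↔ y a b = y' a b := by
      intro y y' a b
      rw [← ent, gauge_ungauge]
    have e1 : (∑ a, if gauge σ i w a = R a then 0 else 1 : ℕ) =
        ∑ a, if w a = ungauge σ i R a then 0 else 1 := by
      refine Finset.sum_congr rfl fun a _ => ?_
      have : gauge σ i w a = R a ↔ w a = ungauge σ i R a := by
        rw [funext_iff, funext_iff]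
        exact forall_congr' fun b => ent w R a b
      simp only [this]
    have e2 : (∑ b, if ∀ a, gauge σ i w a b = K a b then 0 else 1 : ℕ) =
        ∑ b, if ∀ a, w a b = ungauge σ i K a b then 0 else 1 := by
      refine Finset.sum_congr rfl fun b _ => ?_
      simp only [ent]
    have e3 : (∑ a, ∑ b, if R a b = K a b then 0 else 1 : ℕ) =
        ∑ a, ∑ b, if ungauge σ i R a b = ungauge σ i K a b then 0 else 1 := by
      refine Finset.sum_congr rfl fun a _ => Finset.sum_congr rfl fun b _ => ?_
      simp only [ent2]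
    rw [e1, e2, e3]
    exact hle

/-- in the gauge, the view of a word has the value of the face -/
theorem gauge_view (c : G → A → B → X → F) (g : G) (i j : Bool) (a : A) (b : B) :
    gauge σ i (view pa pb σ c (g, i, j)) a b =
      c (if i then (pa a).symm (if j then (pb b).symm g else g)
        else (if j then (pb b).symm g else g)) a b := by
  funext x
  cases i <;> cases j <;> simp [gauge, view, rel]

theorem gauge_na (c : G → A → B → X → F) (v : G × Bool × Bool) (a : A) :
    gauge σ ((sqC pa pb hc).na a v).2.1 (view pa pb σ c ((sqC pa pb hc).na a v)) a =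
      gauge σ v.2.1 (view pa pb σ c v) a := by
  obtain ⟨g, i, j⟩ := v
  funext b
  have h2 : ∀ g, pa a ((pb b).symm g) = (pb b).symm (pa a g) := fun g => by
    rw [Equiv.eq_symm_apply, ← hc, Equiv.apply_symm_apply]
  have h3 : ∀ g, (pa a).symm ((pb b).symm g) = (pb b).symm ((pa a).symm g) := fun g => by
    rw [Equiv.symm_apply_eq, h2, Equiv.apply_symm_apply]
  have e : (sqC pa pb hc).na a (g, i, j) = (if i then (pa a).symm g else pa a g, !i, j) := rfl
  rw [e, gauge_view, gauge_view]
  cases i <;> cases j <;> simp [h3]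

theorem gauge_nb (c : G → A → B → X → F) (v : G × Bool × Bool) (a : A) (b : B) :
    gauge σ ((sqC pa pb hc).nb b v).2.1 (view pa pb σ c ((sqC pa pb hc).nb b v)) a b =
      gauge σ v.2.1 (view pa pb σ c v) a b := by
  obtain ⟨g, i, j⟩ := v
  have e : (sqC pa pb hc).nb b (g, i, j) = (if j then (pb b).symm g else pb b g, i, !j) := rfl
  rw [e, gauge_view, gauge_view]
  cases i <;> cases j <;> simp

include hc in
open Classical in
/-- **Local testability for words**: if the views of `c` are in the local tensor codes at all but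
few vertices, then `c` is near a word all of whose views are in the local tensor codes. -/
theorem ltc_word [Fintype G] [Nonempty G] {κ L : ℝ} (hκ : 0 < κ) (hL0 : 0 ≤ L) (hL : 4 * L ≤ κ ^ 2)
    (hAT : ∀ i j, CodeAT X (CA i) (CB j) κ)
    (h1 : ExpP pa L) (h2 : ExpP (fun a => (pa a).symm) L)
    (h3 : ExpP pb L) (h4 : ExpP (fun b => (pb b).symm) L)
    {D : ℕ} (hD : 0 < D) (hDA : Fintype.card A ≤ D) (hDB : Fintype.card B ≤ D)
    (c : G → A → B → X → F)
    (hbad : 16 * (D : ℝ) ^ 3 * #{v | ¬ InT (CA v.2.1) (CB v.2.2) (view pa pb σ c v)} <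
      κ ^ 2 * Fintype.card G) :
    ∃ c' : G → A → B → X → F, (∀ v, InT (CA v.2.1) (CB v.2.2) (view pa pb σ c' v)) ∧
      #{v | view pa pb σ c v ≠ view pa pb σ c' v} ≤
        (2 * D + 1) * #{v | ¬ InT (CA v.2.1) (CB v.2.2) (view pa pb σ c v)} := by
  set C := sqC pa pb hc with hC
  set Bad : Finset (G × Bool × Bool) :=
    {v | ¬ InT (CA v.2.1) (CB v.2.2) (view pa pb σ c v)} with hBad
  set z : G × Bool × Bool → A → B → X → F := fun v =>
    if v ∈ Bad then 0 else gauge σ v.2.1 (view pa pb σ c v) with hz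
  have hzero : ∀ v : G × Bool × Bool, (0 : A → B → X → F) ∈ ZZ σ CA CB v := by
    rintro ⟨g, i, j⟩
    change InT (CA i) (CB j) (ungauge σ i 0)
    have : ungauge σ i (0 : A → B → X → F) = 0 := by
      funext a b x
      cases i <;> simp [ungauge, rel]
    rw [this]
    exact ⟨fun a x => (CB j).zero_mem, fun b x => (CA i).zero_mem⟩
  have hzZ : ∀ v, z v ∈ ZZ σ CA CB v := by
    intro v
    by_cases hv : v ∈ Bad
    · simp only [hz, if_pos hv]
      exact hzero v
    · simp only [hz, if_neg hv]
      change InT _ _ (ungauge σ v.2.1 (gauge σ v.2.1 (view pa pb σ c v)))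
      rw [ungauge_gauge]
      simpa [hBad] using hv
  -- number of disputes
  have heA : ∀ a v, C.eA z a v ≤ (if v ∈ Bad then 1 else 0) + (if C.na a v ∈ Bad then 1 else 0) := by
    intro a v
    unfold SqC.eA
    by_cases hv : v ∈ Bad
    · split_ifs <;> simp
    by_cases hv' : C.na a v ∈ Bad
    · split_ifs <;> simp
    · have : z v a = z (C.na a v) a := by
        simp only [hz, if_neg hv, if_neg hv']
        exact (gauge_na pa pb hc σ c v a).symm
      simp [this]
  have heB : ∀ b v, C.eB z b v ≤ (if v ∈ Bad then 1 else 0) + (if C.nb b v ∈ Bad then 1 else 0) := by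
    intro b v
    unfold SqC.eB
    by_cases hv : v ∈ Bad
    · split_ifs <;> simp
    by_cases hv' : C.nb b v ∈ Bad
    · split_ifs <;> simp
    · have : ∀ a, z v a b = z (C.nb b v) a b := by
        intro a
        simp only [hz, if_neg hv, if_neg hv']
        exact (gauge_nb pa pb hc σ c v a b).symm
      simp [this]
  have hcA : ∀ a, ∑ v, (if C.na a v ∈ Bad then 1 else 0 : ℕ) = #Bad := by
    intro a
    have hinv : Function.Involutive (C.na a) := C.na_na a
    rw [← Equiv.sum_comp (hinv.toPerm) (fun v => if C.na a v ∈ Bad then 1 else 0)]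
    simp [C.na_na]
  have hcB : ∀ b, ∑ v, (if C.nb b v ∈ Bad then 1 else 0 : ℕ) = #Bad := by
    intro b
    have hinv : Function.Involutive (C.nb b) := C.nb_nb b
    rw [← Equiv.sum_comp (hinv.toPerm) (fun v => if C.nb b v ∈ Bad then 1 else 0)]
    simp [C.nb_nb]
  have htot : C.tot z ≤ 4 * D * #Bad := by
    unfold SqC.tot SqC.dA SqC.dB
    rw [Finset.sum_add_distrib, Finset.sum_comm,
      Finset.sum_comm (s := univ (α := G × Bool × Bool)) (t := univ (α := B))]
    have t1 : ∑ a, ∑ v, C.eA z a v ≤ ∑ a : A, 2 * #Bad := by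
      refine Finset.sum_le_sum fun a _ => ?_
      refine (Finset.sum_le_sum fun v _ => heA a v).trans ?_
      rw [Finset.sum_add_distrib, hcA a]
      simp
      omega
    have t2 : ∑ b, ∑ v, C.eB z b v ≤ ∑ b : B, 2 * #Bad := by
      refine Finset.sum_le_sum fun b _ => ?_
      refine (Finset.sum_le_sum fun v _ => heB b v).trans ?_
      rw [Finset.sum_add_distrib, hcB b]
      simp
      omega
    simp only [Finset.sum_const, Finset.card_univ, smul_eq_mul] at t1 t2
    nlinarith [Nat.mul_le_mul_right (#Bad) hDA, Nat.mul_le_mul_right (#Bad) hDB]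
  have hmono : ∀ {m : ℕ}, m ≤ D → (4 : ℝ) * (m : ℝ) ^ 2 ≤ 4 * (D : ℝ) ^ 2 := by
    intro m hm
    have : (m : ℝ) ≤ D := by exact_mod_cast hm
    have h0 : (0 : ℝ) ≤ m := Nat.cast_nonneg m
    nlinarith
  have hSA : SqC.Spec C.na L (4 * (D : ℝ) ^ 2) := by
    intro f hf
    refine (specA (hc := hc) hL0 h1 h2 f hf).trans ?_
    gcongr
  have hSB : SqC.Spec C.nb L (4 * (D : ℝ) ^ 2) := by
    intro f hf
    refine (specB (hc := hc) hL0 h3 h4 f hf).trans ?_
    gcongr
  have hDpos : (0 : ℝ) < D := by exact_mod_cast hD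
  obtain ⟨z', hz', hna, hnb, hdist⟩ := C.ltc (ZZ σ CA CB) κ L (4 * (D : ℝ) ^ 2) hκ (by positivity)
    hL (agreeTest pa pb hc σ CA CB hAT) hSA hSB z hzZ (by
      have hcard : (Fintype.card (G × Bool × Bool) : ℝ) = 4 * Fintype.card G := by
        simp [Fintype.card_prod]
        ring
      rw [hcard]
      have : (C.tot z : ℝ) ≤ 4 * D * #Bad := by exact_mod_cast htot
      calc 4 * (4 * (D : ℝ) ^ 2) * C.tot z ≤ 4 * (4 * (D : ℝ) ^ 2) * (4 * D * #Bad) :=
            mul_le_mul_of_nonneg_left this (by positivity)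
        _ = 4 * (16 * (D : ℝ) ^ 3 * #Bad) := by ring
        _ < 4 * (κ ^ 2 * Fintype.card G) := by linarith
        _ = κ ^ 2 * (4 * Fintype.card G) := by ring)
  refine ⟨fun g a b => z' (g, false, false) a b, ?_, ?_⟩
  · -- the views of the new word
    have hview : ∀ v : G × Bool × Bool,
        view pa pb σ (fun g a b => z' (g, false, false) a b) v = ungauge σ v.2.1 (z' v) := by
      rintro ⟨g, i, j⟩
      have h : gauge σ i (view pa pb σ (fun g a b => z' (g, false, false) a b) (g, i, j)) =
          z' (g, i, j) := by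
        funext a b
        rw [gauge_view]
        cases i <;> cases j
        · simp
        · have e := hnb a b (g, false, true)
          simpa [hC, sqC] using e.symm
        · have e := congrFun (hna a (g, true, false)) b
          simpa [hC, sqC] using e.symm
        · have e := hnb a b (g, true, true)
          have e2 := congrFun (hna a (((pb b).symm g), true, false)) b
          simp only [hC, sqC, if_true, Bool.not_true] at e e2
          simp only [if_true]
          rw [e, e2]
      rw [← h, ungauge_gauge]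
    intro v
    rw [hview v]
    exact hz' v
  · have hsub : ({v | view pa pb σ c v ≠ view pa pb σ (fun g a b => z' (g, false, false) a b) v} :
        Finset (G × Bool × Bool)) ⊆ Bad ∪ ({v | z v ≠ z' v} : Finset (G × Bool × Bool)) := by
      intro v hv
      simp only [Finset.mem_filter, mem_univ, true_and, Finset.mem_union] at hv ⊢
      by_contra hcon
      rw [not_or, not_not] at hcon
      obtain ⟨hv1, hv2⟩ := hcon
      apply hv
      have hview : ∀ v : G × Bool × Bool,
          gauge σ v.2.1 (view pa pb σ (fun g a b => z' (g, false, false) a b) v) = z' v := by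
        rintro ⟨g, i, j⟩
        funext a b
        rw [gauge_view]
        cases i <;> cases j
        · simp
        · have e := hnb a b (g, false, true)
          simpa [hC, sqC] using e.symm
        · have e := congrFun (hna a (g, true, false)) b
          simpa [hC, sqC] using e.symm
        · have e := hnb a b (g, true, true)
          have e2 := congrFun (hna a (((pb b).symm g), true, false)) b
          simp only [hC, sqC, if_true, Bool.not_true] at e e2
          simp only [if_true]
          rw [e, e2]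
      have e3 : gauge σ v.2.1 (view pa pb σ c v) =
          gauge σ v.2.1 (view pa pb σ (fun g a b => z' (g, false, false) a b) v) := by
        rw [hview v, ← hv2]
        simp only [hz, if_neg hv1]
      have e4 := congrArg (ungauge σ v.2.1) e3
      rwa [ungauge_gauge, ungauge_gauge] at e4
    refine (Finset.card_le_card hsub).trans ((Finset.card_union_le _ _).trans ?_)
    have : 2 * #{v | z v ≠ z' v} ≤ 4 * D * #Bad := hdist.trans htot
    nlinarith

include hc in
/-- `ltc_word` with named exceptional sets. -/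
theorem ltc_word' [Fintype G] [Nonempty G] {κ L : ℝ} (hκ : 0 < κ) (hL0 : 0 ≤ L) (hL : 4 * L ≤ κ ^ 2)
    (hAT : ∀ i j, CodeAT X (CA i) (CB j) κ)
    (h1 : ExpP pa L) (h2 : ExpP (fun a => (pa a).symm) L)
    (h3 : ExpP pb L) (h4 : ExpP (fun b => (pb b).symm) L)
    {D : ℕ} (hD : 0 < D) (hDA : Fintype.card A ≤ D) (hDB : Fintype.card B ≤ D)
    (c : G → A → B → X → F) (Bad : Finset (G × Bool × Bool))
    (hB : ∀ v ∉ Bad, InT (CA v.2.1) (CB v.2.2) (view pa pb σ c v))
    (hbad : 16 * (D : ℝ) ^ 3 * #Bad < κ ^ 2 * Fintype.card G) :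
    ∃ c' : G → A → B → X → F, (∀ v, InT (CA v.2.1) (CB v.2.2) (view pa pb σ c' v)) ∧
      ∃ W : Finset (G × Bool × Bool), #W ≤ (2 * D + 1) * #Bad ∧
        ∀ v ∉ W, view pa pb σ c v = view pa pb σ c' v := by
  classical
  have hsub : ({v | ¬ InT (CA v.2.1) (CB v.2.2) (view pa pb σ c v)} :
      Finset (G × Bool × Bool)) ⊆ Bad := by
    intro v hv
    by_contra hcon
    exact (mem_filter.1 hv).2 (hB v hcon)
  have hcard := card_le_card hsub
  obtain ⟨c', h5, h6⟩ := ltc_word pa pb hc σ CA CB hκ hL0 hL hAT h1 h2 h3 h4 hD hDA hDB c (by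
    have : (#{v | ¬ InT (CA v.2.1) (CB v.2.2) (view pa pb σ c v)} : ℝ) ≤ #Bad := by
      exact_mod_cast hcard
    refine lt_of_le_of_lt (mul_le_mul_of_nonneg_left ?_ (by positivity)) hbad
    convert this)
  refine ⟨c', h5, univ.filter fun v => ¬ view pa pb σ c v = view pa pb σ c' v, ?_, ?_⟩
  · refine le_trans ?_ (h6.trans (Nat.mul_le_mul_left _ ?_))
    · apply le_of_eq
      congr
    · convert hcard
  · intro v hv
    by_contra hcon
    exact hv (mem_filter.2 ⟨mem_univ _, hcon⟩)

end Main

end Vale.Agent.P330.W.H709
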