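import Vale.Agent.P330.H155.Alg
import Vale.Agent.P330.W.H709.LTCG

/-!
# Anchoring: from arrays which pass the site tests at most sites to bundles of contents

`S : Cd J Γ B F` is the code of `H155/Alg.lean`.  A bundle is an array
`Z : J × Γ → Γ → B → B → F`.  `Chk S T Z h` collects the tests at the site `h`: `d1`-`d4` (tensor
code in both directions), `s` (symmetry), `u1` (equal information rows), `u2` (left translations by
generators `T`).  Main results:

* `anch`: `n` arrays which pass the tests outside a small set `Bad` are equal, outside one set of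
  size at most `4 (2 |B| + 1) ^ 2 * #Bad`, to arrays which pass all the tests at all sites;
* `anchor`: hence they are equal, outside that set, to the bundles `S.Z (u i)` of contents.
-/

set_option autoImplicit false

namespace Vale.Agent.P330.W.H709

open Finset H155

section Sites

variable {J Γ B F : Type*} [AddCommGroup J] [Group Γ] [DistribMulAction Γ J] [Field F]

/-- left translation by `(z, g)` -/
def ltS (z : J) (g : Γ) : Equiv.Perm (J × Γ) where
  toFun h := lt z g h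
  invFun h := (g⁻¹ • (h.1 - z), g⁻¹ * h.2)
  left_inv h := by
    ext <;> simp [lt]
  right_inv h := by
    ext <;> simp [lt]

/-- `h ↦ h * b⁻¹` -/
def nbS (S : Cd J Γ B F) (b : B) : Equiv.Perm (J × Γ) where
  toFun h := S.nb b h
  invFun h := (h.1 - h.2 • S.bet b, h.2 * S.eta b)
  left_inv h := by
    ext <;> simp [Cd.nb]
  right_inv h := by
    ext <;> simp [Cd.nb]

/-- inversion -/
def invS : Equiv.Perm (J × Γ) where
  toFun h := inv2 h
  invFun h := inv2 h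
  left_inv h := by
    ext <;> simp [inv2]
  right_inv h := by
    ext <;> simp [inv2]

@[simp] theorem ltS_apply (z : J) (g : Γ) (h : J × Γ) : ltS z g h = lt z g h := rfl

@[simp] theorem nbS_apply (S : Cd J Γ B F) (b : B) (h : J × Γ) : nbS S b h = S.nb b h := rfl

@[simp] theorem invS_apply (h : J × Γ) : invS h = inv2 h := rfl

theorem inv_nb (S : Cd J Γ B F) (b : B) (h : J × Γ) :
    inv2 (S.nb b h) = lt (S.bet b) (S.eta b) (inv2 h) := by
  ext
  · simp only [inv2, Cd.nb, lt, smul_add, mul_inv_rev, inv_inv]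
    rw [← mul_smul, mul_assoc (S.eta b), ← mul_assoc _ h.2, inv_mul_cancel, one_mul,
      mul_inv_cancel, one_smul, add_comm, mul_smul]
  · simp [inv2, Cd.nb, lt]

/-- the tests at the site `h` -/
structure Chk (S : Cd J Γ B F) (T : Set Γ) (Z : J × Γ → Γ → B → B → F) (h : J × Γ) : Prop where
  d1 : ∀ γ b', Z h γ b' ∈ S.C0
  d2 : ∀ γ b', (fun b => Z (S.nb b h) γ b' b) ∈ S.C1
  d3 : ∀ γ b, (fun b' => Z h γ b' b) ∈ S.C0
  d4 : ∀ γ b, (fun b' => Z (lt (S.bet b') (S.eta b') h) (γ * (S.eta b')⁻¹) b' b) ∈ S.C1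
  s : ∀ γ b' b, Z h γ b' b = Z (inv2 h) (γ * h.2) b b'
  u1 : ∀ γ, ∀ b' ∈ S.info, Z h γ b' = Z h γ S.b0
  u2 : ∀ γ, ∀ g ∈ T, Z h (γ * g) S.b0 = Z (lt 0 g h) γ S.b0

/-- the part `d1`-`d4` of the tests -/
structure Chk4 (S : Cd J Γ B F) (Z : J × Γ → Γ → B → B → F) (h : J × Γ) : Prop where
  d1 : ∀ γ b', Z h γ b' ∈ S.C0
  d2 : ∀ γ b', (fun b => Z (S.nb b h) γ b' b) ∈ S.C1
  d3 : ∀ γ b, (fun b' => Z h γ b' b) ∈ S.C0
  d4 : ∀ γ b, (fun b' => Z (lt (S.bet b') (S.eta b') h) (γ * (S.eta b')⁻¹) b' b) ∈ S.C1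

theorem Chk.toChk4 {S : Cd J Γ B F} {T : Set Γ} {Z : J × Γ → Γ → B → B → F} {h : J × Γ}
    (H : Chk S T Z h) : Chk4 S Z h := ⟨H.d1, H.d2, H.d3, H.d4⟩

/-- The bundles of contents pass all the tests. -/
theorem Chk.of_Z [Fintype J] {S : Cd J Γ B F} (hS : S.Good) (T : Set Γ) (u : J → F) (h : J × Γ) :
    Chk S T (S.Z u) h where
  d1 γ b' := Cd.Z_D1 hS u h γ b'
  d2 γ b' := Cd.Z_D2 hS u h γ b'
  d3 γ b := Cd.Z_D3 hS u h γ b
  d4 γ b := Cd.Z_D4 hS u h γ b
  s γ b' b := Cd.Z_S hS u h γ b' b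
  u1 γ _ hb := Cd.Z_U1 hS u h γ hb
  u2 γ g _ := Cd.Z_U2 hS u h γ g

end Sites

section Count

variable {G B : Type*} [Fintype B] [DecidableEq G]

theorem exists_perm_cover [Fintype G] (p : B → Equiv.Perm G) (Bad : Finset G) :
    ∃ E : Finset G, #E ≤ Fintype.card B * #Bad ∧ ∀ h ∉ E, ∀ b, p b h ∉ Bad := by
  refine ⟨univ.biUnion fun b => Bad.map (p b).symm.toEmbedding, ?_, ?_⟩
  · refine card_biUnion_le.trans ?_
    simp
  · intro h hh b hb
    apply hh
    simp only [mem_biUnion, mem_univ, true_and, mem_map, Equiv.coe_toEmbedding]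
    exact ⟨b, p b h, hb, by simp⟩

end Count

section Main

variable {J Γ B F : Type*} [AddCommGroup J] [Group Γ] [DistribMulAction Γ J] [Field F]
variable {S : Cd J Γ B F}

/-- the word of `ltc_word` -/
def toC {n : ℕ} (Z : Fin n → J × Γ → Γ → B → B → F) :
    J × Γ → B → B → Γ × Fin n → F := fun h a b x => Z x.2 h x.1 a b

/-- relabelling along the `A`-edges -/
def sg (S : Cd J Γ B F) (n : ℕ) (a : B) : Equiv.Perm (Γ × Fin n) where
  toFun x := (x.1 * (S.eta a)⁻¹, x.2)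
  invFun x := (x.1 * S.eta a, x.2)
  left_inv x := by simp
  right_inv x := by simp

/-- the left steps -/
def paL (S : Cd J Γ B F) (a : B) : Equiv.Perm (J × Γ) := (ltS (S.bet a) (S.eta a)).symm

/-- the right steps -/
def pbR (S : Cd J Γ B F) (b : B) : Equiv.Perm (J × Γ) := (nbS S b).symm

/-- the two local codes -/
def CC (S : Cd J Γ B F) (i : Bool) : Submodule F (B → F) := if i then S.C1 else S.C0

theorem inT_of_chk {n : ℕ} {Z : Fin n → J × Γ → Γ → B → B → F} {Bad : Finset (J × Γ)}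
    (hZ : ∀ h ∉ Bad, ∀ i, Chk4 S (Z i) h) {h : J × Γ} (hc1 : h ∉ Bad)
    (hc2 : ∀ a, ltS (S.bet a) (S.eta a) h ∉ Bad) (hc3 : ∀ b, nbS S b h ∉ Bad) (i j : Bool) :
    InT (CC S i) (CC S j) (view (paL S) (pbR S) (sg S n) (toC Z) (h, i, j)) := by
  cases i <;> cases j
  · exact ⟨fun a x => (hZ h hc1 x.2).d1 x.1 a, fun b x => (hZ h hc1 x.2).d3 x.1 b⟩
  · refine ⟨fun a x => ?_, fun b x => ?_⟩
    · simpa [view, toC, pbR, CC] using (hZ h hc1 x.2).d2 x.1 a
    · simpa [view, toC, pbR, CC] using (hZ _ (hc3 b) x.2).d3 x.1 b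
  · refine ⟨fun a x => ?_, fun b x => ?_⟩
    · simpa [view, toC, paL, CC, rel, sg] using (hZ _ (hc2 a) x.2).d1 (x.1 * (S.eta a)⁻¹) a
    · simpa [view, toC, paL, CC, rel, sg] using (hZ h hc1 x.2).d4 x.1 b
  · refine ⟨fun a x => ?_, fun b x => ?_⟩
    · have := (hZ _ (hc2 a) x.2).d2 (x.1 * (S.eta a)⁻¹) a
      simp only [ltS_apply, Cd.nb_lt] at this
      simpa [view, toC, paL, pbR, CC, rel, sg] using this
    · simpa [view, toC, paL, pbR, CC, rel, sg] using (hZ _ (hc3 b) x.2).d4 x.1 b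

theorem chk_of_inT {n : ℕ} {c : J × Γ → B → B → Γ × Fin n → F}
    (hc : ∀ v, InT (CC S v.2.1) (CC S v.2.2) (view (paL S) (pbR S) (sg S n) c v))
    (i : Fin n) (h : J × Γ) : Chk4 S (fun h γ a b => c h a b (γ, i)) h := by
  refine ⟨?_, ?_, ?_, ?_⟩
  · exact fun γ a => (hc (h, false, false)).1 a (γ, i)
  · intro γ a
    simpa [view, pbR, CC] using (hc (h, false, true)).1 a (γ, i)
  · exact fun γ b => (hc (h, false, false)).2 b (γ, i)
  · intro γ b
    simpa [view, paL, CC, rel, sg] using (hc (h, true, false)).2 b (γ, i)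

theorem paL_pbR (a b : B) (g : J × Γ) : paL S a (pbR S b g) = pbR S b (paL S a g) := by
  simp only [paL, pbR]
  rw [Equiv.symm_apply_eq, ← (nbS S b).apply_eq_iff_eq, nbS_apply, nbS_apply, ltS_apply,
    Cd.nb_lt, ← nbS_apply, Equiv.apply_symm_apply, ← nbS_apply, Equiv.apply_symm_apply,
    ← ltS_apply, Equiv.apply_symm_apply]

variable [Fintype J] [Fintype Γ] [Fintype B]

/-- **Local testability** of families of arrays. -/
theorem ltc4 [Nonempty B] {n : ℕ} {κ L : ℝ} (hκ : 0 < κ) (hL0 : 0 ≤ L) (hL : 4 * L ≤ κ ^ 2)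
    (hAT : ∀ i j : Bool, CodeAT (Γ × Fin n) (CC S i) (CC S j) κ)
    (h1 : ExpP (fun a => ltS (S.bet a) (S.eta a)) L) (h3 : ExpP (fun b => nbS S b) L)
    (Z : Fin n → J × Γ → Γ → B → B → F) (Bad : Finset (J × Γ))
    (hZ : ∀ h ∉ Bad, ∀ i, Chk4 S (Z i) h)
    (hb1 : 64 * (Fintype.card B : ℝ) ^ 3 * (2 * Fintype.card B + 1) * #Bad <
      κ ^ 2 * Fintype.card (J × Γ)) :
    ∃ Z' : Fin n → J × Γ → Γ → B → B → F, (∀ i h, Chk4 S (Z' i) h) ∧
      ∃ W : Finset (J × Γ), #W ≤ 4 * (2 * Fintype.card B + 1) ^ 2 * #Bad ∧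
        ∀ h ∉ W, ∀ i, Z i h = Z' i h := by
  classical
  obtain ⟨E1, hE1, hE1'⟩ := exists_perm_cover (fun a => ltS (S.bet a) (S.eta a)) Bad
  obtain ⟨E2, hE2, hE2'⟩ := exists_perm_cover (fun b => nbS S b) Bad
  set E : Finset (J × Γ) := Bad ∪ E1 ∪ E2 with hE
  set BV : Finset ((J × Γ) × Bool × Bool) := E ×ˢ (univ : Finset (Bool × Bool)) with hBV'
  have hBV : #BV ≤ 4 * (2 * Fintype.card B + 1) * #Bad := by
    rw [hBV', card_product, show #(univ : Finset (Bool × Bool)) = 4 by simp]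
    have e1 := card_union_le (Bad ∪ E1) E2
    have e2 := card_union_le Bad E1
    have : #E ≤ (2 * Fintype.card B + 1) * #Bad := by
      refine e1.trans ?_
      have : (2 * Fintype.card B + 1) * #Bad =
        Fintype.card B * #Bad + Fintype.card B * #Bad + #Bad := by ring
      omega
    calc #E * 4 ≤ (2 * Fintype.card B + 1) * #Bad * 4 := Nat.mul_le_mul_right _ this
      _ = _ := by ring
  obtain ⟨c', hc'1, W, hW, hc'2⟩ := ltc_word' (paL S) (pbR S) paL_pbR (sg S n) (CC S)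
    (CC S) hκ hL0 hL hAT (h1.symm hL0) h1 (h3.symm hL0) h3 (D := Fintype.card B) Fintype.card_pos le_rfl le_rfl
    (toC Z) BV (by
      rintro ⟨h, i, j⟩ hv
      have hv' : h ∉ E := fun hh => hv (mem_product.2 ⟨hh, mem_univ _⟩)
      simp only [hE, mem_union, not_or] at hv'
      exact inT_of_chk hZ hv'.1.1 (hE1' h hv'.1.2) (hE2' h hv'.2) i j) (by
      have : (#BV : ℝ) ≤ 4 * (2 * Fintype.card B + 1) * #Bad := by exact_mod_cast hBV
      refine lt_of_le_of_lt (mul_le_mul_of_nonneg_left this (by positivity)) ?_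
      refine lt_of_eq_of_lt ?_ hb1
      ring)
  refine ⟨fun i h γ a b => c' h a b (γ, i), chk_of_inT hc'1, W.image Prod.fst, ?_, ?_⟩
  · refine card_image_le.trans (hW.trans ?_)
    have h5 := Nat.mul_le_mul_left (2 * Fintype.card B + 1) hBV
    have h6 : (2 * Fintype.card B + 1) * (4 * (2 * Fintype.card B + 1) * #Bad) =
        4 * (2 * Fintype.card B + 1) ^ 2 * #Bad := by ring
    rw [h6] at h5
    exact h5
  · intro h hh i
    have h7 : (h, false, false) ∉ W := fun h8 => hh (mem_image_of_mem Prod.fst h8)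
    have h9 : toC Z h = c' h := hc'2 _ h7
    funext γ a b
    change Z i h γ a b = c' h a b (γ, i)
    rw [← h9, toC]

/-- **Anchoring**, with exact arrays. -/
theorem anch [Nonempty B] {T : Set Γ} {n : ℕ} {κ L θ : ℝ} (hκ : 0 < κ) (hL0 : 0 ≤ L)
    (hL : 4 * L ≤ κ ^ 2) (hAT : ∀ i j : Bool, CodeAT (Γ × Fin n) (CC S i) (CC S j) κ)
    (h1 : ExpP (fun a => ltS (S.bet a) (S.eta a)) L) (h3 : ExpP (fun b => nbS S b) L)
    (hdist : ∀ X : J × Γ → B → F, S.IsM X → ∀ W : Finset (J × Γ), (∀ h ∉ W, X h = 0) →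
      (#W : ℝ) < θ * Fintype.card (J × Γ) → X = 0)
    (Z : Fin n → J × Γ → Γ → B → B → F) (Bad : Finset (J × Γ))
    (hZ : ∀ h ∉ Bad, ∀ i, Chk S T (Z i) h)
    (hb1 : 64 * (Fintype.card B : ℝ) ^ 3 * (2 * Fintype.card B + 1) * #Bad <
      κ ^ 2 * Fintype.card (J × Γ))
    (hb2 : (8 * (2 * (Fintype.card B : ℝ) + 1) ^ 2 + 1) * #Bad < θ * Fintype.card (J × Γ)) :
    ∃ Z' : Fin n → J × Γ → Γ → B → B → F, (∀ i h, Chk S T (Z' i) h) ∧
      ∃ W : Finset (J × Γ), #W ≤ 4 * (2 * Fintype.card B + 1) ^ 2 * #Bad ∧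
        ∀ h ∉ W, ∀ i, Z i h = Z' i h := by
  classical
  obtain ⟨Z', hZ', W, hWc, hWeq⟩ := ltc4 hκ hL0 hL hAT h1 h3 Z Bad
    (fun h hh i => (hZ h hh i).toChk4) hb1
  -- uniqueness by distance
  have huniq : ∀ (X Y : J × Γ → B → F), S.IsM X → S.IsM Y →
      ∀ p : Equiv.Perm (J × Γ), (∀ h, h ∉ W → p h ∉ W → h ∉ Bad → X h = Y h) → X = Y := by
    intro X Y hX hY p hXY
    have h7 : #(W ∪ W.map p.symm.toEmbedding ∪ Bad) ≤ 2 * #W + #Bad := by
      refine (card_union_le _ _).trans ?_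
      have := card_union_le W (W.map p.symm.toEmbedding)
      rw [card_map] at this
      omega
    have h8 : (#(W ∪ W.map p.symm.toEmbedding ∪ Bad) : ℝ) ≤ 2 * #W + #Bad := by
      exact_mod_cast h7
    have h9 : (#W : ℝ) ≤ 4 * (2 * Fintype.card B + 1) ^ 2 * #Bad := by exact_mod_cast hWc
    refine sub_eq_zero.1 (hdist (X - Y) (hX.sub hY) (W ∪ W.map p.symm.toEmbedding ∪ Bad) ?_ ?_)
    · intro h hh
      simp only [mem_union, not_or, mem_map, Equiv.coe_toEmbedding, not_exists, not_and] at hh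
      have h10 : p h ∉ W := fun h11 => hh.1.2 _ h11 (by simp)
      simp [hXY h hh.1.1 h10 hh.2]
    · linarith
  have hM : ∀ i γ a, S.IsM (fun h b => Z' i h γ a b) := fun i γ a =>
    ⟨fun h => (hZ' i h).d1 γ a, fun h => (hZ' i h).d2 γ a⟩
  refine ⟨Z', fun i h => ⟨(hZ' i h).d1, (hZ' i h).d2, (hZ' i h).d3, (hZ' i h).d4, ?_, ?_, ?_⟩,
    W, hWc, hWeq⟩
  · intro γ a b
    have hM2 : S.IsM (fun h b => Z' i (inv2 h) (γ * h.2) b a) := by
      refine ⟨fun h => (hZ' i _).d3 _ a, fun h => ?_⟩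
      have := (hZ' i (inv2 h)).d4 (γ * h.2) a
      have e : ∀ b, (S.nb b h).2 = h.2 * (S.eta b)⁻¹ := fun b => rfl
      simp only [inv_nb, e, ← mul_assoc]
      exact this
    have := huniq _ _ (hM i γ a) hM2 invS (by
      intro h hh1 hh2 hh3
      funext b
      rw [invS_apply] at hh2
      rw [← hWeq h hh1 i, ← hWeq _ hh2 i]
      exact (hZ h hh3 i).s γ a b)
    exact congrFun (congrFun this h) b
  · intro γ a ha
    have := huniq _ _ (hM i γ a) (hM i γ S.b0) (Equiv.refl _) (by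
      intro h hh1 hh2 hh3
      change Z' i h γ a = Z' i h γ S.b0
      rw [← hWeq h hh1 i]
      exact (hZ h hh3 i).u1 γ a ha)
    exact congrFun this h
  · intro γ g hg
    have := huniq _ _ (hM i (γ * g) S.b0) ((hM i γ S.b0).lt 0 g) (ltS 0 g) (by
      intro h hh1 hh2 hh3
      change Z' i h (γ * g) S.b0 = Z' i (lt 0 g h) γ S.b0
      rw [ltS_apply] at hh2
      rw [← hWeq h hh1 i, ← hWeq _ hh2 i]
      exact (hZ h hh3 i).u2 γ g hg)
    exact congrFun this h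

/-- **Anchoring**: arrays which pass the tests at most sites are near bundles of contents. -/
theorem anchor [Nonempty B] (hS : S.Good) {T : Set Γ} (hT : Subgroup.closure T = ⊤)
    (hTi : ∀ g ∈ T, g⁻¹ ∈ T) {n : ℕ} {κ L θ : ℝ} (hκ : 0 < κ) (hL0 : 0 ≤ L)
    (hL : 4 * L ≤ κ ^ 2) (hAT : ∀ i j : Bool, CodeAT (Γ × Fin n) (CC S i) (CC S j) κ)
    (h1 : ExpP (fun a => ltS (S.bet a) (S.eta a)) L) (h3 : ExpP (fun b => nbS S b) L)
    (hdist : ∀ X : J × Γ → B → F, S.IsM X → ∀ W : Finset (J × Γ), (∀ h ∉ W, X h = 0) →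
      (#W : ℝ) < θ * Fintype.card (J × Γ) → X = 0)
    (Z : Fin n → J × Γ → Γ → B → B → F) (Bad : Finset (J × Γ))
    (hZ : ∀ h ∉ Bad, ∀ i, Chk S T (Z i) h)
    (hb1 : 64 * (Fintype.card B : ℝ) ^ 3 * (2 * Fintype.card B + 1) * #Bad <
      κ ^ 2 * Fintype.card (J × Γ))
    (hb2 : (8 * (2 * (Fintype.card B : ℝ) + 1) ^ 2 + 1) * #Bad < θ * Fintype.card (J × Γ)) :
    ∃ (u : Fin n → J → F) (W : Finset (J × Γ)),
      #W ≤ 4 * (2 * Fintype.card B + 1) ^ 2 * #Bad ∧ ∀ h ∉ W, ∀ i, Z i h = S.Z (u i) h := by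
  obtain ⟨Z', hZ', W, hW, hW'⟩ := anch hκ hL0 hL hAT h1 h3 hdist Z Bad hZ hb1 hb2
  have : ∀ i, ∃ u : J → F, Z' i = S.Z u := fun i =>
    Cd.pin hS T hT hTi (Z' i) (fun h => (hZ' i h).d3) (fun h => (hZ' i h).d4)
      (fun h => (hZ' i h).s) (fun h => (hZ' i h).u1) (fun h => (hZ' i h).u2)
  choose u hu using this
  exact ⟨u, W, hW, fun h hh i => by rw [hW' h hh i, hu i]⟩

end Main

end Vale.Agent.P330.W.H709
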