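import Mathlib

/-!
# Local testability of square complexes with agreement-testable local views

`SqC V A B`: two commuting families of fixed-point free involutions `na a`, `nb b` of a finite
set `V` (the vertices of a left-right complex, four-partite version); the faces at `v` are
labelled by `A × B`.  A family of views `z v : A → B → S` (values on the faces at `v`).
An edge is disputed if the views at its two end points differ on a face.

Main result `SqC.ltc`: if the local views are agreement testable (constant `κ`), the summation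
operators satisfy `N (M f) ≤ L N f + c (∑ f)² / |V|` and `4 L ≤ κ²`, then a family of
views with less than `κ² |V| / (4 c)` disputes is equal, up to at most half that number of
vertices, to a family without disputes.
-/

namespace Vale.Agent.P330.W.H709

open Finset

/-- A square complex given by two commuting families of fixed-point free involutions. -/
structure SqC (V A B : Type*) where
  na : A → V → V
  nb : B → V → V
  na_na : ∀ a v, na a (na a v) = v
  nb_nb : ∀ b v, nb b (nb b v) = v
  na_ne : ∀ a v, na a v ≠ v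
  nb_ne : ∀ b v, nb b v ≠ v
  comm : ∀ a b v, na a (nb b v) = nb b (na a v)

variable {V A B S : Type*} [Fintype V] [Fintype A] [Fintype B]

namespace SqC

open Classical in
/-- `1` if the `A`-edge `a` at `v` is disputed. -/
noncomputable def eA (C : SqC V A B) (z : V → A → B → S) (a : A) (v : V) : ℕ :=
  if z v a = z (C.na a v) a then 0 else 1

open Classical in
/-- `1` if the `B`-edge `b` at `v` is disputed. -/
noncomputable def eB (C : SqC V A B) (z : V → A → B → S) (b : B) (v : V) : ℕ :=
  if ∀ a, z v a b = z (C.nb b v) a b then 0 else 1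

/-- number of disputed `A`-edges at `v` -/
noncomputable def dA (C : SqC V A B) (z : V → A → B → S) (v : V) : ℕ := ∑ a, C.eA z a v

/-- number of disputed `B`-edges at `v` -/
noncomputable def dB (C : SqC V A B) (z : V → A → B → S) (v : V) : ℕ := ∑ b, C.eB z b v

/-- total number of disputes (every edge is counted at both ends) -/
noncomputable def tot (C : SqC V A B) (z : V → A → B → S) : ℕ :=
  ∑ v, (C.dA z v + C.dB z v)

open Classical in
/-- disputed `A`-edges at `v` if the view at `v` is replaced by `w` -/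
noncomputable def dA' (C : SqC V A B) (z : V → A → B → S) (v : V) (w : A → B → S) : ℕ :=
  ∑ a, if w a = z (C.na a v) a then 0 else 1

open Classical in
/-- disputed `B`-edges at `v` if the view at `v` is replaced by `w` -/
noncomputable def dB' (C : SqC V A B) (z : V → A → B → S) (v : V) (w : A → B → S) : ℕ :=
  ∑ b, if ∀ a, w a b = z (C.nb b v) a b then 0 else 1

theorem sum_swap [DecidableEq V] (v v' : V) (hv : v' ≠ v) (g g' : V → ℕ)
    (h : ∀ u, u ≠ v → u ≠ v' → g' u = g u) (hs : g v' = g v) (hs' : g' v' = g' v) :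
    ∑ u, g' u + 2 * g v = ∑ u, g u + 2 * g' v := by
  have key : ∀ k : V → ℕ, ∑ u, k u = k v + (k v' + ∑ u ∈ (univ.erase v).erase v', k u) := by
    intro k
    rw [Finset.add_sum_erase _ _ (by simp [hv]), Finset.add_sum_erase _ _ (mem_univ v)]
  have hr : ∑ u ∈ (univ.erase v).erase v', g' u = ∑ u ∈ (univ.erase v).erase v', g u := by
    refine Finset.sum_congr rfl fun u hu => ?_
    simp only [Finset.mem_erase, mem_univ, and_true] at hu
    exact h u hu.2 hu.1
  rw [key g', key g, hr, hs, hs']
  ring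

theorem eA_symm (C : SqC V A B) (z : V → A → B → S) (a : A) (v : V) :
    C.eA z a (C.na a v) = C.eA z a v := by
  classical
  unfold eA
  rw [C.na_na]
  by_cases h : z v a = z (C.na a v) a
  · rw [if_pos h, if_pos h.symm]
  · rw [if_neg h, if_neg (fun h' => h h'.symm)]

theorem eB_symm (C : SqC V A B) (z : V → A → B → S) (b : B) (v : V) :
    C.eB z b (C.nb b v) = C.eB z b v := by
  classical
  unfold eB
  rw [C.nb_nb]
  by_cases h : ∀ a, z v a b = z (C.nb b v) a b
  · rw [if_pos h, if_pos (fun a => (h a).symm)]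
  · rw [if_neg h, if_neg (fun h' => h fun a => (h' a).symm)]

theorem tot_update [DecidableEq V] (C : SqC V A B) (z : V → A → B → S) (v : V) (w : A → B → S) :
    C.tot (Function.update z v w) + 2 * (C.dA z v + C.dB z v) =
      C.tot z + 2 * (C.dA' z v w + C.dB' z v w) := by
  classical
  have hA : ∀ a, ∑ u, C.eA (Function.update z v w) a u + 2 * C.eA z a v =
      ∑ u, C.eA z a u + 2 * (if w a = z (C.na a v) a then 0 else 1) := by
    intro a
    have h1 : C.eA (Function.update z v w) a v = if w a = z (C.na a v) a then 0 else 1 := by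
      simp [eA, Function.update_of_ne (C.na_ne a v)]
    rw [← h1]
    refine sum_swap v (C.na a v) (C.na_ne a v) _ _ ?_ (C.eA_symm _ _ _) (C.eA_symm _ _ _)
    intro u hu hu'
    have : C.na a u ≠ v := by
      intro h
      apply hu'
      rw [← h, C.na_na]
    simp [eA, Function.update_of_ne hu, Function.update_of_ne this]
  have hB : ∀ b, ∑ u, C.eB (Function.update z v w) b u + 2 * C.eB z b v =
      ∑ u, C.eB z b u + 2 * (if ∀ a, w a b = z (C.nb b v) a b then 0 else 1) := by
    intro b
    have h1 : C.eB (Function.update z v w) b v =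
        if ∀ a, w a b = z (C.nb b v) a b then 0 else 1 := by
      simp [eB, Function.update_of_ne (C.nb_ne b v)]
    rw [← h1]
    refine sum_swap v (C.nb b v) (C.nb_ne b v) _ _ ?_ (C.eB_symm _ _ _) (C.eB_symm _ _ _)
    intro u hu hu'
    have : C.nb b u ≠ v := by
      intro h
      apply hu'
      rw [← h, C.nb_nb]
    simp [eB, Function.update_of_ne hu, Function.update_of_ne this]
  have e1 : ∀ y : V → A → B → S, C.tot y = ∑ a, ∑ u, C.eA y a u + ∑ b, ∑ u, C.eB y b u := by
    intro y
    unfold tot dA dB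
    rw [Finset.sum_add_distrib, Finset.sum_comm, Finset.sum_comm (s := univ (α := V)) (t := univ (α := B))]
  have sA := Finset.sum_congr (rfl : (univ : Finset A) = univ) fun a _ => hA a
  have sB := Finset.sum_congr (rfl : (univ : Finset B) = univ) fun b _ => hB b
  simp only [Finset.sum_add_distrib, ← Finset.mul_sum] at sA sB
  rw [e1, e1]
  unfold dA dB dA' dB'
  omega

/-- no replacement of one view decreases the number of disputes -/
def LocMin (C : SqC V A B) (Z : V → Set (A → B → S)) (z : V → A → B → S) : Prop :=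
  ∀ v, ∀ w ∈ Z v, C.dA z v + C.dB z v ≤ C.dA' z v w + C.dB' z v w

open Classical in
theorem exists_locMin (C : SqC V A B) (Z : V → Set (A → B → S)) (n : ℕ) :
    ∀ z : V → A → B → S, (∀ v, z v ∈ Z v) → C.tot z ≤ n →
      ∃ z' : V → A → B → S, (∀ v, z' v ∈ Z v) ∧ C.LocMin Z z' ∧
        2 * #{v | z v ≠ z' v} + C.tot z' ≤ C.tot z := by
  induction n using Nat.strong_induction_on with
  | _ n ih =>
    intro z hz hn
    by_cases hm : C.LocMin Z z
    · exact ⟨z, hz, hm, by simp⟩
    · unfold LocMin at hm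
      push Not at hm
      obtain ⟨v, w, hw, hlt⟩ := hm
      have hu := C.tot_update z v w
      have hlt' : C.tot (Function.update z v w) + 2 ≤ C.tot z := by omega
      obtain ⟨z', h1, h2, h3⟩ := ih (n - 1) (by omega) (Function.update z v w) (by
        intro u
        by_cases h : u = v
        · subst h; simpa using hw
        · simpa [Function.update_of_ne h] using hz u) (by omega)
      refine ⟨z', h1, h2, ?_⟩
      have hc : #{u | z u ≠ z' u} ≤ #{u | Function.update z v w u ≠ z' u} + 1 := by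
        rw [← Finset.card_singleton v]
        refine le_trans (Finset.card_le_card ?_) (Finset.card_union_le _ _)
        intro u hu
        simp only [Finset.mem_filter, mem_univ, true_and, Finset.mem_union,
          Finset.mem_singleton] at hu ⊢
        by_cases h : u = v
        · exact Or.inr h
        · left
          rwa [Function.update_of_ne h]
      omega

open Classical in
/-- Agreement testability of the local views. -/
def AgreeTest (C : SqC V A B) (Z : V → Set (A → B → S)) (κ : ℝ) : Prop :=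
  ∀ (v : V) (R K : A → B → S), (∀ a, ∃ y ∈ Z (C.na a v), y a = R a) →
    (∀ b, ∃ y ∈ Z (C.nb b v), ∀ a, y a b = K a b) →
    ∃ w ∈ Z v, κ * ((∑ a, if w a = R a then 0 else 1 : ℕ) +
      (∑ b, if ∀ a, w a b = K a b then 0 else 1 : ℕ) : ℕ) ≤
        (∑ a, ∑ b, if R a b = K a b then 0 else 1 : ℕ)

omit [Fintype V] in
/-- The pointwise inequality of the number of disputes for locally minimal views. -/
theorem point_le (C : SqC V A B) (Z : V → Set (A → B → S)) (κ : ℝ) (hκ : 0 ≤ κ)
    (hT : C.AgreeTest Z κ) (z : V → A → B → S) (hz : ∀ v, z v ∈ Z v) (hm : C.LocMin Z z) (v : V) :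
    κ * ((C.dA z v : ℝ) + C.dB z v) ≤
      ∑ a, (C.dB z (C.na a v) : ℝ) + ∑ b, (C.dA z (C.nb b v) : ℝ) := by
  classical
  obtain ⟨w, hw, hle⟩ := hT v (fun a => z (C.na a v) a) (fun a b => z (C.nb b v) a b)
    (fun a => ⟨_, hz _, rfl⟩) (fun b => ⟨_, hz _, fun a => rfl⟩)
  have h1 : C.dA z v + C.dB z v ≤ C.dA' z v w + C.dB' z v w := hm v w hw
  have h2 : κ * ((C.dA z v : ℝ) + C.dB z v) ≤ κ * (((C.dA' z v w + C.dB' z v w : ℕ)) : ℝ) := by
    refine mul_le_mul_of_nonneg_left ?_ hκ
    exact_mod_cast h1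
  refine le_trans h2 (le_trans hle ?_)
  have h3 : (∑ a, ∑ b, if z (C.na a v) a b = z (C.nb b v) a b then 0 else 1 : ℕ) ≤
      ∑ a, C.dB z (C.na a v) + ∑ b, C.dA z (C.nb b v) := by
    unfold dA dB
    rw [Finset.sum_comm (s := univ (α := B)) (t := univ (α := A)), ← Finset.sum_add_distrib]
    refine Finset.sum_le_sum fun a _ => ?_
    rw [← Finset.sum_add_distrib]
    refine Finset.sum_le_sum fun b _ => ?_
    by_cases hab : z (C.na a v) a b = z (C.nb b v) a b
    · simp [hab]
    · rw [if_neg hab]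
      by_contra hcon
      have hB0 : C.eB z b (C.na a v) = 0 := by omega
      have hA0 : C.eA z a (C.nb b v) = 0 := by omega
      unfold eB at hB0
      unfold eA at hA0
      rw [ite_eq_left_iff] at hB0 hA0
      have hB1 : ∀ a', z (C.na a v) a' b = z (C.nb b (C.na a v)) a' b := by
        by_contra h; exact absurd (hB0 h) (by simp)
      have hA1 : z (C.nb b v) a = z (C.na a (C.nb b v)) a := by
        by_contra h; exact absurd (hA0 h) (by simp)
      apply hab
      rw [hB1 a, hA1, C.comm]
  exact_mod_cast h3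

/-- **Spectral hypothesis** on a family of self-maps. -/
def Spec (n : A → V → V) (L c : ℝ) : Prop :=
  ∀ f : V → ℝ, (∀ v, 0 ≤ f v) →
    ∑ v, (∑ a, f (n a v)) ^ 2 ≤ L * ∑ v, f v ^ 2 + c * (∑ v, f v) ^ 2 / Fintype.card V

open Classical in
theorem dichotomy (C : SqC V A B) (Z : V → Set (A → B → S)) (κ L c : ℝ) (hκ : 0 < κ) (hc : 0 < c)
    (hL : 4 * L ≤ κ ^ 2) (hT : C.AgreeTest Z κ) (hA : Spec C.na L c) (hB : Spec C.nb L c)
    (z : V → A → B → S) (hz : ∀ v, z v ∈ Z v) (hm : C.LocMin Z z) :
    C.tot z = 0 ∨ κ ^ 2 * Fintype.card V ≤ 4 * c * C.tot z := by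
  by_cases h0 : C.tot z = 0
  · exact Or.inl h0
  right
  set p : V → ℝ := fun v => (C.dA z v : ℝ) with hp
  set q : V → ℝ := fun v => (C.dB z v : ℝ) with hq
  have hp0 : ∀ v, 0 ≤ p v := fun v => Nat.cast_nonneg _
  have hq0 : ∀ v, 0 ≤ q v := fun v => Nat.cast_nonneg _
  have hpt : ∀ v, κ * (p v + q v) ≤ ∑ a, q (C.na a v) + ∑ b, p (C.nb b v) :=
    C.point_le Z κ hκ.le hT z hz hm
  have hV : 0 < (Fintype.card V : ℝ) := by
    have : Nonempty V := by
      by_contra h
      rw [not_nonempty_iff] at h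
      exact h0 (by simp [tot])
    exact_mod_cast Fintype.card_pos
  -- square and sum
  have h1 : κ ^ 2 * ∑ v, (p v + q v) ^ 2 ≤
      2 * (∑ v, (∑ a, q (C.na a v)) ^ 2 + ∑ v, (∑ b, p (C.nb b v)) ^ 2) := by
    rw [Finset.mul_sum, ← Finset.sum_add_distrib, Finset.mul_sum]
    refine Finset.sum_le_sum fun v _ => ?_
    have h2 := hpt v
    have h3 : 0 ≤ κ * (p v + q v) := mul_nonneg hκ.le (add_nonneg (hp0 v) (hq0 v))
    have h4 := mul_self_le_mul_self h3 h2
    nlinarith [sq_nonneg (∑ a, q (C.na a v) - ∑ b, p (C.nb b v))]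
  have h2 := hA q hq0
  have h3 := hB p hp0
  have hpq : ∑ v, p v ^ 2 + ∑ v, q v ^ 2 ≤ ∑ v, (p v + q v) ^ 2 := by
    rw [← Finset.sum_add_distrib]
    refine Finset.sum_le_sum fun v _ => ?_
    nlinarith [mul_nonneg (hp0 v) (hq0 v)]
  have hP : 0 ≤ ∑ v, p v := Finset.sum_nonneg fun v _ => hp0 v
  have hQ : 0 ≤ ∑ v, q v := Finset.sum_nonneg fun v _ => hq0 v
  have hsum : ∑ v, (p v + q v) = ∑ v, p v + ∑ v, q v := Finset.sum_add_distrib
  have hN : 0 ≤ ∑ v, (p v + q v) ^ 2 := Finset.sum_nonneg fun v _ => sq_nonneg _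
  have hL0 : L * (∑ v, q v ^ 2 + ∑ v, p v ^ 2) ≤ κ ^ 2 / 4 * ∑ v, (p v + q v) ^ 2 := by
    have hs : 0 ≤ ∑ v, q v ^ 2 + ∑ v, p v ^ 2 :=
      add_nonneg (Finset.sum_nonneg fun v _ => sq_nonneg _) (Finset.sum_nonneg fun v _ => sq_nonneg _)
    calc L * (∑ v, q v ^ 2 + ∑ v, p v ^ 2) ≤ κ ^ 2 / 4 * (∑ v, q v ^ 2 + ∑ v, p v ^ 2) :=
          mul_le_mul_of_nonneg_right (by linarith) hs
      _ ≤ κ ^ 2 / 4 * ∑ v, (p v + q v) ^ 2 :=
          mul_le_mul_of_nonneg_left (by linarith) (by positivity)
  have hcs : c * (∑ v, q v) ^ 2 / Fintype.card V + c * (∑ v, p v) ^ 2 / Fintype.card V ≤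
      c * (∑ v, (p v + q v)) ^ 2 / Fintype.card V := by
    rw [← add_div, div_le_div_iff_of_pos_right hV, ← mul_add, hsum]
    refine mul_le_mul_of_nonneg_left ?_ hc.le
    nlinarith [mul_nonneg hP hQ]
  have h4 : κ ^ 2 / 2 * ∑ v, (p v + q v) ^ 2 ≤ 2 * (c * (∑ v, (p v + q v)) ^ 2 / Fintype.card V) := by
    nlinarith
  -- Cauchy–Schwarz on the support
  have hint : ∀ v, p v + q v = ((C.dA z v + C.dB z v : ℕ) : ℝ) := fun v => by simp [hp, hq]
  have hcs2 : (∑ v, (p v + q v)) ^ 2 ≤
      (∑ v, (p v + q v)) * ∑ v, (p v + q v) ^ 2 := by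
    have hle : ∑ v, (p v + q v) ≤ ∑ v, (p v + q v) ^ 2 := by
      refine Finset.sum_le_sum fun v _ => ?_
      rw [hint v]
      have : (C.dA z v + C.dB z v) ≤ (C.dA z v + C.dB z v) ^ 2 := Nat.le_self_pow (by norm_num) _
      exact_mod_cast this
    have h0' : 0 ≤ ∑ v, (p v + q v) := by rw [hsum]; exact add_nonneg hP hQ
    nlinarith
  have htot : (C.tot z : ℝ) = ∑ v, (p v + q v) := by
    unfold tot
    push_cast
    rfl
  have hNpos : 0 < ∑ v, (p v + q v) ^ 2 := by
    have h5 : 0 < (C.tot z : ℝ) := by exact_mod_cast Nat.pos_of_ne_zero h0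
    rw [htot] at h5
    have hle : ∑ v, (p v + q v) ≤ ∑ v, (p v + q v) ^ 2 := by
      refine Finset.sum_le_sum fun v _ => ?_
      rw [hint v]
      have : (C.dA z v + C.dB z v) ≤ (C.dA z v + C.dB z v) ^ 2 := Nat.le_self_pow (by norm_num) _
      exact_mod_cast this
    linarith
  have h6 : κ ^ 2 / 2 * (∑ v, (p v + q v) ^ 2) * Fintype.card V ≤
      2 * c * ((∑ v, (p v + q v)) * ∑ v, (p v + q v) ^ 2) := by
    have h7 : κ ^ 2 / 2 * (∑ v, (p v + q v) ^ 2) * Fintype.card V ≤
        2 * c * (∑ v, (p v + q v)) ^ 2 := by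
      have := mul_le_mul_of_nonneg_right h4 hV.le
      refine le_trans this (le_of_eq ?_)
      field_simp
    refine le_trans h7 ?_
    exact mul_le_mul_of_nonneg_left hcs2 (by positivity)
  rw [htot]
  have h8 : (κ ^ 2 / 2 * Fintype.card V) * (∑ v, (p v + q v) ^ 2) ≤
      (2 * c * ∑ v, (p v + q v)) * ∑ v, (p v + q v) ^ 2 := by
    nlinarith
  have h9 := le_of_mul_le_mul_right h8 hNpos
  linarith

open Classical in
/-- **Local testability.** -/
theorem ltc (C : SqC V A B) (Z : V → Set (A → B → S)) (κ L c : ℝ) (hκ : 0 < κ) (hc : 0 < c)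
    (hL : 4 * L ≤ κ ^ 2) (hT : C.AgreeTest Z κ) (hA : Spec C.na L c) (hB : Spec C.nb L c)
    (z : V → A → B → S) (hz : ∀ v, z v ∈ Z v)
    (hlt : 4 * c * C.tot z < κ ^ 2 * Fintype.card V) :
    ∃ z' : V → A → B → S, (∀ v, z' v ∈ Z v) ∧
      (∀ a v, z' v a = z' (C.na a v) a) ∧ (∀ a b v, z' v a b = z' (C.nb b v) a b) ∧
      2 * #{v | z v ≠ z' v} ≤ C.tot z := by
  obtain ⟨z', h1, h2, h3⟩ := C.exists_locMin Z (C.tot z) z hz le_rfl
  have h4 : C.tot z' = 0 := by
    rcases C.dichotomy Z κ L c hκ hc hL hT hA hB z' h1 h2 with h | h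
    · exact h
    · exfalso
      have : (C.tot z' : ℝ) ≤ C.tot z := by
        have : C.tot z' ≤ C.tot z := by omega
        exact_mod_cast this
      nlinarith
  refine ⟨z', h1, ?_, ?_, by omega⟩
  · intro a v
    unfold tot at h4
    rw [Finset.sum_eq_zero_iff] at h4
    have h5 : C.dA z' v = 0 := by have := h4 v (mem_univ v); omega
    unfold dA at h5
    rw [Finset.sum_eq_zero_iff] at h5
    have h6 := h5 a (mem_univ a)
    unfold eA at h6
    by_contra h
    rw [if_neg h] at h6
    exact absurd h6 one_ne_zero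
  · intro a b v
    unfold tot at h4
    rw [Finset.sum_eq_zero_iff] at h4
    have h5 : C.dB z' v = 0 := by have := h4 v (mem_univ v); omega
    unfold dB at h5
    rw [Finset.sum_eq_zero_iff] at h5
    have h6 := h5 b (mem_univ b)
    unfold eB at h6
    by_contra h
    rw [if_neg (fun h' => h (h' a))] at h6
    exact absurd h6 one_ne_zero

end SqC

end Vale.Agent.P330.W.H709
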